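import Vale.Agent.P219.CH.Cert.Five.Coeff

/-!
P219: the profile in dimension five on `[0, 1]` (the variable is `x = r/2`), its differential
equation, the sign facts, and the end-point weight `g`.
-/

namespace Vale.Agent.P219.CH.Cert.Five

open Filter Topology Set

noncomputable section

/-- The profile `h x = K (2 x)`. -/
def h0 (x : ℝ) : ℝ := tser u x / (1 + x) ^ 3

/-- Its derivative. -/
def h1 (x : ℝ) : ℝ := -tser (dT u) x / (1 + x) ^ 3

/-- `-g'' c / (8 c)`. -/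
def G3 (x : ℝ) : ℝ := tser Gw x / (1 + x) ^ 3

/-- Its second derivative. -/
def h2 (x : ℝ) : ℝ :=
  (8 * x * G3 x - 16 * a - 32 * (1 - x ^ 2) * h1 x + 64 * x * h0 x) / (8 * x)

lemma tser_div {T : ℕ → ℝ} (hT : PolyBdd T) {x : ℝ} (hx : |x| < 1) :
    tser T x / (1 + x) ^ 3 = pser T x := by
  have : 0 < 1 + x := by linarith [(abs_lt.1 hx).1]
  rw [tser_eq hT hx]
  field_simp

lemma h1_eq {x : ℝ} (hx : |x| < 1) : h1 x = -pser (dT u) x := by
  rw [h1, neg_div, tser_div polyBdd_u.dT hx]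

lemma h0_eq {x : ℝ} (hx : |x| < 1) : h0 x = pser u x := tser_div polyBdd_u hx

lemma G3_eq {x : ℝ} (hx : |x| < 1) : G3 x = pser Gw x := tser_div polyBdd_Gw hx

lemma mem_nhds_ball {x : ℝ} (hx : |x| < 1) : {y : ℝ | |y| < 1} ∈ 𝓝 x :=
  (isOpen_lt continuous_abs continuous_const).mem_nhds hx

lemma hasDerivAt_h0 {x : ℝ} (hx : |x| < 1) : HasDerivAt h0 (h1 x) x := by
  rw [h1_eq hx]
  exact (hasDerivAt_pser polyBdd_u hx).congr_of_eventuallyEq
    (eventually_of_mem (mem_nhds_ball hx) fun y hy => h0_eq hy)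

lemma polyBdd_idx {T : ℕ → ℝ} (hT : PolyBdd T) : PolyBdd fun j => (j : ℝ) * T j :=
  hT.mul_poly (D := 1) (m := 1) fun j => by
    rw [Nat.abs_cast, one_mul, pow_one]; linarith

lemma pser_idx {T : ℕ → ℝ} (hT : PolyBdd T) {x : ℝ} (hx : |x| < 1) :
    pser (fun j => (j : ℝ) * T j) x = -(x * pser (dT T) x) := by
  rw [pser_eq_add (polyBdd_idx hT) hx]
  simp [dT, pser]

lemma pser_idx2 {T : ℕ → ℝ} (hT : PolyBdd T) {x : ℝ} (hx : |x| < 1) :
    pser (fun j => (j : ℝ) * ((j : ℝ) - 1) * T j) x = x ^ 2 * pser (dT (dT T)) x := by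
  have hp : PolyBdd fun j => (j : ℝ) * ((j : ℝ) - 1) * T j :=
    hT.mul_poly (D := 1) (m := 2) fun j => by
      have : (0 : ℝ) ≤ j := Nat.cast_nonneg j
      rw [abs_le]; constructor <;> nlinarith
  rw [pser_eq_add hp hx, show (fun j : ℕ => ((j + 1 : ℕ) : ℝ) * (((j + 1 : ℕ) : ℝ) - 1) * T (j + 1)) =
    fun j : ℕ => (j : ℝ) * dT T j from funext fun j => by simp [dT]; ring, pser_idx hT.dT hx]
  simp
  ring

lemma comb_eq {x : ℝ} (hx : |x| < 1) :
    8 * pser Gw x - 32 * pser (fun j => dT u (j + 1)) x + 32 * pser (fun j => (j : ℝ) * u j) x +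
      64 * pser u x - 8 * pser (dT (dT u)) x = 0 := by
  have h := ((((polyBdd_Gw.hasSum hx).mul_left 8).sub ((polyBdd_u.dT.succ.hasSum hx).mul_left 32)).add
    (((polyBdd_idx polyBdd_u).hasSum hx).mul_left 32)).add ((polyBdd_u.hasSum hx).mul_left 64)
  have h' := h.sub ((polyBdd_u.dT.dT.hasSum hx).mul_left 8)
  refine h'.unique (hasSum_zero.congr_fun fun j => ?_)
  simp only [Gw, dT, u]
  push_cast
  field_simp
  ring

lemma hasDerivAt_h1 {x : ℝ} (hx : x ∈ Ioo (0 : ℝ) 1) : HasDerivAt h1 (h2 x) x := by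
  have hx' : |x| < 1 := by rw [abs_of_pos hx.1]; exact hx.2
  have e : h2 x = pser (dT (dT u)) x := by
    have hx0 := hx.1.ne'
    rw [h2, div_eq_iff (mul_ne_zero (by norm_num) hx0), G3_eq hx', h1_eq hx', h0_eq hx']
    have e1 := pser_eq_add polyBdd_u.dT hx'
    rw [show dT u 0 = a / 2 by simp [dT, u]] at e1
    have e2 := pser_idx polyBdd_u hx'
    linear_combination x * comb_eq hx' + 32 * e1 - 32 * x * e2
  rw [e]
  exact ((hasDerivAt_pser polyBdd_u.dT hx').neg.congr_deriv (neg_neg _)).congr_of_eventuallyEq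
    (eventually_of_mem (mem_nhds_ball hx') fun y hy => h1_eq hy)

/-- The differential equation. -/
lemma ode {x : ℝ} (hx : x ∈ Ioo (0 : ℝ) 1) :
    x ^ 2 * (1 - x ^ 2) * h2 x + (7 - 11 * x ^ 2) * x * h1 x + (9 - 29 * x ^ 2) * h0 x =
      1 / 4 - 8 * a * x := by
  have hx' : |x| < 1 := by rw [abs_of_pos hx.1]; exact hx.2
  have e : h2 x = pser (dT (dT u)) x := by
    refine (hasDerivAt_h1 hx).unique ?_
    exact ((hasDerivAt_pser polyBdd_u.dT hx').neg.congr_deriv (neg_neg _)).congr_of_eventuallyEq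
      (eventually_of_mem (mem_nhds_ball hx') fun y hy => h1_eq hy)
  rw [e, h1_eq hx', h0_eq hx']
  set v : ℕ → ℝ := fun j => ((j : ℝ) + 3) ^ 2 * u j
  set z : ℕ → ℝ := fun j => (((j : ℝ) + 5) ^ 2 + 4) * u j
  have hv : PolyBdd v := polyBdd_u.mul_poly (D := 9) (m := 2) fun j => by
    have : (0 : ℝ) ≤ j := Nat.cast_nonneg j
    rw [abs_of_nonneg (by positivity)]; nlinarith
  have hz : PolyBdd z := polyBdd_u.mul_poly (D := 29) (m := 2) fun j => by
    have : (0 : ℝ) ≤ j := Nat.cast_nonneg j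
    rw [abs_of_nonneg (by positivity)]; nlinarith
  have i2 := (polyBdd_u.mul_poly (f := fun j => (j : ℝ) * ((j : ℝ) - 1)) (D := 1) (m := 2)
    fun j => by
      have : (0 : ℝ) ≤ j := Nat.cast_nonneg j
      rw [abs_le]; constructor <;> nlinarith).hasSum hx'
  have i1 := (polyBdd_idx polyBdd_u).hasSum hx'
  have i0 := polyBdd_u.hasSum hx'
  have v1 : pser v x = x ^ 2 * pser (dT (dT u)) x - 7 * (x * pser (dT u) x) + 9 * pser u x := by
    rw [← pser_idx2 polyBdd_u hx', ← neg_neg (x * pser (dT u) x), ← pser_idx polyBdd_u hx']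
    refine (hv.hasSum hx').unique ?_
    convert (i2.add (i1.mul_left 7)).add (i0.mul_left 9) using 1
    · funext j; simp only [v]; ring
    · ring
  have z1 : pser z x = x ^ 2 * pser (dT (dT u)) x - 11 * (x * pser (dT u) x) + 29 * pser u x := by
    rw [← pser_idx2 polyBdd_u hx', ← neg_neg (x * pser (dT u) x), ← pser_idx polyBdd_u hx']
    refine (hz.hasSum hx').unique ?_
    convert (i2.add (i1.mul_left 11)).add (i0.mul_left 29) using 1
    · funext j; simp only [z]; ring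
    · ring
  have vz : pser v x = 1 / 4 - 8 * a * x + x ^ 2 * pser z x := by
    rw [pser_eq_add hv hx', pser_eq_add hv.succ hx']
    have : (fun j => v (j + 1 + 1)) = z := funext fun j => by
      simp only [v, z, u]
      push_cast
      field_simp
      ring
    rw [this]
    simp only [v, u]
    push_cast
    ring
  linear_combination vz - v1 + x ^ 2 * z1

lemma continuousOn_div_cube {T : ℕ → ℝ} (hs : Summable fun j => |D3 T j|) :
    ContinuousOn (fun x => tser T x / (1 + x) ^ 3) (Icc 0 1) :=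
  ((continuousOn_tser hs).mono (Icc_subset_Icc (by norm_num) le_rfl)).div (by fun_prop)
    fun x hx => pow_ne_zero 3 (by linarith [hx.1])

lemma continuousOn_h0 : ContinuousOn h0 (Icc 0 1) := continuousOn_div_cube near_u.1

lemma continuousOn_h1 : ContinuousOn h1 (Icc 0 1) :=
  (continuousOn_div_cube near_du.1).neg.congr fun x _ => by simp [h1, neg_div]

lemma continuousOn_G3 : ContinuousOn G3 (Icc 0 1) := continuousOn_div_cube near_Gw.1

lemma tser_u_bound {x : ℝ} (hx : x ∈ Icc (0 : ℝ) 1) :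
    |tser u x - (1 / 36 - (a / 2 - 1 / 12) * x + (104 / 900 - 3 * a / 2) * x ^ 2)| ≤
      11 / 1000 * x ^ 3 := by
  have h := tser_bound near_u.1 hx
  obtain ⟨e0, e1, e2, -⟩ := heads
  rw [e0, e1, e2, add_zero] at h
  exact h.trans (mul_le_mul_of_nonneg_right near_u.2 (pow_nonneg hx.1 3))

lemma tser_du_bound {x : ℝ} (hx : x ∈ Icc (0 : ℝ) 1) :
    |tser (dT u) x - (a / 2 - (29 / 450 - 3 * a / 2) * x + (19 * a / 6 - 29 / 150) * x ^ 2)| ≤
      34 / 1000 * x ^ 3 := by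
  have h := tser_bound near_du.1 hx
  obtain ⟨-, -, -, e0, e1, e2, -⟩ := heads
  rw [e0, e1, e2] at h
  exact h.trans (mul_le_mul_of_nonneg_right near_du.2 (pow_nonneg hx.1 3))

lemma pow_bounds {x : ℝ} (hx : x ∈ Icc (0 : ℝ) 1) : x ^ 2 ≤ x ∧ x ^ 3 ≤ x ^ 2 ∧ 0 ≤ x ^ 3 :=
  ⟨by nlinarith [hx.1, hx.2], by nlinarith [hx.1, hx.2, sq_nonneg x], pow_nonneg hx.1 3⟩

lemma h1_nonpos {x : ℝ} (hx : x ∈ Icc (0 : ℝ) 1) : h1 x ≤ 0 := by
  have hb := (abs_le.1 (tser_du_bound hx)).1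
  obtain ⟨p2, p3, p0⟩ := pow_bounds hx
  have : 0 < 1 + x := by linarith [hx.1]
  refine div_nonpos_of_nonpos_of_nonneg (neg_nonpos.2 ?_) (by positivity)
  have m1 := mul_nonneg (sub_nonneg.2 a_bounds.1) hx.1
  have m2 := mul_nonneg (sub_nonneg.2 a_bounds.1) (sq_nonneg x)
  nlinarith [a_bounds.1, hx.1]

lemma h1_ge {x : ℝ} (hx : x ∈ Icc (0 : ℝ) 1) : -(2 * h0 x) ≤ h1 x := by
  have hb := (abs_le.1 (tser_du_bound hx)).2
  have hu := (abs_le.1 (tser_u_bound hx)).1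
  obtain ⟨p2, p3, p0⟩ := pow_bounds hx
  have : 0 < 1 + x := by linarith [hx.1]
  rw [h0, h1, ← mul_div_assoc, ← neg_div]
  refine div_le_div_of_nonneg_right ?_ (by positivity)
  have m1 := mul_nonneg (sub_nonneg.2 a_bounds.2) hx.1
  have m2 := mul_nonneg (sub_nonneg.2 a_bounds.2) (sq_nonneg x)
  nlinarith [a_bounds.2, hx.1]

lemma h0_nonneg {x : ℝ} (hx : x ∈ Icc (0 : ℝ) 1) : 0 ≤ h0 x := by
  linarith [h1_ge hx, h1_nonpos hx]

lemma h0_zero : h0 0 = 1 / 36 := by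
  rw [h0_eq (by simp), pser_eq_add polyBdd_u (by simp)]
  simp [u]

lemma h0_le {x : ℝ} (hx : x ∈ Icc (0 : ℝ) 1) : h0 x ≤ 1 / 36 := by
  rw [← h0_zero]
  refine antitoneOn_of_hasDerivWithinAt_nonpos (f' := h1) (convex_Icc 0 1) continuousOn_h0 ?_ ?_
    ⟨le_rfl, zero_le_one⟩ hx hx.1 <;> rw [interior_Icc] <;> intro y hy
  · exact (hasDerivAt_h0 (by rw [abs_of_pos hy.1]; exact hy.2)).hasDerivWithinAt
  · exact h1_nonpos (Ioo_subset_Icc_self hy)

lemma G3_nonneg {x : ℝ} (hx : x ∈ Icc (0 : ℝ) 1) : 0 ≤ G3 x := by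
  have hb := tser_bound near_Gw.1 hx
  obtain ⟨-, -, -, -, -, -, e0, e1, e2⟩ := heads
  rw [e0, e1, e2] at hb
  have hb' := (abs_le.1 (hb.trans (mul_le_mul_of_nonneg_right near_Gw.2 (pow_nonneg hx.1 3)))).1
  obtain ⟨p2, p3, p0⟩ := pow_bounds hx
  have : 0 < 1 + x := by linarith [hx.1]
  refine div_nonneg ?_ (by positivity)
  have m1 := mul_nonneg (sub_nonneg.2 a_bounds.2) hx.1
  have m2 := mul_nonneg (sub_nonneg.2 a_bounds.2) (sq_nonneg x)
  nlinarith [hx.1]

lemma h0_one_bounds : 117 / 10000 ≤ h0 1 ∧ h0 1 ≤ 146 / 10000 := by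
  have h := abs_le.1 (tser_u_bound (x := 1) ⟨zero_le_one, le_rfl⟩)
  rw [h0, show ((1 : ℝ) + 1) ^ 3 = 8 by norm_num, le_div_iff₀ (by norm_num), div_le_iff₀ (by norm_num)]
  constructor <;> linarith [h.1, h.2, a_bounds.1, a_bounds.2]

/-- The value of the derivative at the singular point. -/
lemma h1_one : h1 1 = 2 * a - 1 / 16 - 5 * h0 1 := by
  set φ : ℝ → ℝ := fun x => x ^ 2 * (1 - x ^ 2) * h2 x + (7 - 11 * x ^ 2) * x * h1 x +
    (9 - 29 * x ^ 2) * h0 x - (1 / 4 - 8 * a * x) with hφ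
  have hev : φ =ᶠ[𝓝[<] (1 : ℝ)] fun _ => 0 := by
    filter_upwards [Ioo_mem_nhdsLT (show (0 : ℝ) < 1 by norm_num)] with x hx
    simp only [hφ, ode hx, sub_self]
  have hc : ContinuousWithinAt φ (Ioc 0 1) 1 := by
    have hsub : Ioc (0 : ℝ) 1 ⊆ Icc 0 1 := Ioc_subset_Icc_self
    have c0 := continuousOn_h0.mono hsub
    have c1 := continuousOn_h1.mono hsub
    have c3 := continuousOn_G3.mono hsub
    have c2 : ContinuousOn h2 (Ioc 0 1) := by
      unfold h2
      refine ContinuousOn.div ?_ (by fun_prop) fun x hx => by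
        have := hx.1
        positivity
      fun_prop
    have : ContinuousOn φ (Ioc 0 1) := by rw [hφ]; fun_prop
    exact this 1 ⟨one_pos, le_rfl⟩
  have h : φ 1 = 0 := by
    refine tendsto_nhds_unique (f := φ) (l := 𝓝[<] (1 : ℝ)) ?_
      (tendsto_const_nhds.congr' hev.symm)
    refine hc.mono_left (nhdsWithin_le_of_mem ?_)
    exact mem_of_superset (Ioo_mem_nhdsLT (show (0 : ℝ) < 1 by norm_num)) Ioo_subset_Ioc_self
  simp only [hφ] at h
  linarith

lemma hasDerivWithinAt_h0_one : HasDerivWithinAt h0 (h1 1) (Iic 1) 1 := by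
  refine hasDerivWithinAt_Iic_of_tendsto_deriv (s := Ioo 0 1)
    (fun x hx => (hasDerivAt_h0 (by rw [abs_of_pos hx.1]; exact hx.2)).differentiableAt.differentiableWithinAt)
    ((continuousOn_h0 1 ⟨zero_le_one, le_rfl⟩).mono Ioo_subset_Icc_self)
    (Ioo_mem_nhdsLT one_pos) ?_
  refine Tendsto.congr' (f₁ := h1) ?_ ?_
  · filter_upwards [Ioo_mem_nhdsLT (show (0 : ℝ) < 1 by norm_num)] with x hx
    exact ((hasDerivAt_h0 (by rw [abs_of_pos hx.1]; exact hx.2)).deriv).symm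
  · refine (continuousOn_h1 1 ⟨zero_le_one, le_rfl⟩).mono_left (nhdsWithin_le_of_mem ?_)
    exact mem_of_superset (Ioo_mem_nhdsLT (show (0 : ℝ) < 1 by norm_num)) Ioo_subset_Icc_self

/-- The weight of an end point, on `[0, 1]`. -/
def gf (c : ℝ) : ℝ :=
  -c + 8 * a * c ^ 2 + 4 * c ^ 2 * (1 - c ^ 2) * h1 c + 4 * c * (3 - 7 * c ^ 2) * h0 c

/-- Its derivative. -/
def gd (c : ℝ) : ℝ := -16 * a * c - 8 * c * h1 c - (24 - 32 * c ^ 2) * h0 c

lemma continuousOn_gf : ContinuousOn gf (Icc 0 1) := by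
  have := continuousOn_h0
  have := continuousOn_h1
  unfold gf
  fun_prop

lemma continuousOn_gd : ContinuousOn gd (Icc 0 1) := by
  have := continuousOn_h0
  have := continuousOn_h1
  unfold gd
  fun_prop

lemma hasDerivAt_gf {c : ℝ} (hc : c ∈ Ioo (0 : ℝ) 1) : HasDerivAt gf (gd c) c := by
  have d0 := hasDerivAt_h0 (x := c) (by rw [abs_of_pos hc.1]; exact hc.2)
  have d1 := hasDerivAt_h1 hc
  have h := ((((hasDerivAt_id c).neg).add ((hasDerivAt_pow 2 c).const_mul (8 * a))).add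
    ((((hasDerivAt_pow 2 c).const_mul 4).mul ((hasDerivAt_pow 2 c).const_sub 1)).mul d1)).add
    ((((hasDerivAt_id c).const_mul 4).mul (((hasDerivAt_pow 2 c).const_mul 7).const_sub 3)).mul d0)
  refine (h.congr_of_eventuallyEq (Eventually.of_forall fun y => ?_)).congr_deriv ?_
  · simp [gf]
  · simp only [gd, id_eq, Pi.mul_apply]
    push_cast
    linear_combination 4 * ode hc

lemma hasDerivAt_gd {c : ℝ} (hc : c ∈ Ioo (0 : ℝ) 1) : HasDerivAt gd (-8 * c * G3 c) c := by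
  have d0 := hasDerivAt_h0 (x := c) (by rw [abs_of_pos hc.1]; exact hc.2)
  have d1 := hasDerivAt_h1 hc
  have h := ((((hasDerivAt_id c).const_mul (-16 * a))).sub
    (((hasDerivAt_id c).const_mul 8).mul d1)).sub
    ((((hasDerivAt_pow 2 c).const_mul 32).const_sub 24).mul d0)
  refine (h.congr_of_eventuallyEq (Eventually.of_forall fun y => ?_)).congr_deriv ?_
  · simp [gd]
  · simp only [id_eq, h2]
    have := hc.1.ne'
    field_simp
    push_cast
    ring

lemma concaveOn_gf : ConcaveOn ℝ (Icc 0 1) gf := by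
  refine concaveOn_of_hasDerivWithinAt2_nonpos (f' := gd) (f'' := fun c => -8 * c * G3 c)
    (convex_Icc 0 1) continuousOn_gf ?_ ?_ ?_ <;> rw [interior_Icc] <;> intro c hc
  · exact (hasDerivAt_gf hc).hasDerivWithinAt
  · exact (hasDerivAt_gd hc).hasDerivWithinAt
  · nlinarith [G3_nonneg (Ioo_subset_Icc_self hc), hc.1]

lemma gd_nonpos {c : ℝ} (hc : c ∈ Icc (0 : ℝ) 1) : gd c ≤ 0 := by
  have h : gd c ≤ gd 0 := by
    refine antitoneOn_of_hasDerivWithinAt_nonpos (f' := fun c => -8 * c * G3 c) (convex_Icc 0 1)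
      continuousOn_gd ?_ ?_ ⟨le_rfl, zero_le_one⟩ hc hc.1 <;> rw [interior_Icc] <;> intro y hy
    · exact (hasDerivAt_gd hy).hasDerivWithinAt
    · nlinarith [G3_nonneg (Ioo_subset_Icc_self hy), hy.1]
  refine h.trans ?_
  simp [gd, h0_zero]

lemma gf_nonpos {c : ℝ} (hc : c ∈ Icc (0 : ℝ) 1) : gf c ≤ 0 := by
  have h : gf c ≤ gf 0 := by
    refine antitoneOn_of_hasDerivWithinAt_nonpos (f' := gd) (convex_Icc 0 1)
      continuousOn_gf ?_ ?_ ⟨le_rfl, zero_le_one⟩ hc hc.1 <;> rw [interior_Icc] <;> intro y hy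
    · exact (hasDerivAt_gf hy).hasDerivWithinAt
    · exact gd_nonpos (Ioo_subset_Icc_self hy)
  simpa [gf] using h

lemma gf_balance :
    ∫ c in (0 : ℝ)..1, gf c * c * (1 - c ^ 2) = 2 * a / 3 - 2 / 15 := by
  set M : ℝ → ℝ := fun c => -c ^ 3 / 3 + c ^ 5 / 5 + 2 * a * c ^ 4 - 4 * a / 3 * c ^ 6 +
    4 * c ^ 3 * (1 - c ^ 2) ^ 2 * h0 c with hM
  have hc0 := continuousOn_h0
  have hg := continuousOn_gf
  have h := intervalIntegral.integral_eq_sub_of_hasDerivAt_of_le (f := M)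
    (f' := fun c => gf c * c * (1 - c ^ 2)) zero_le_one (by rw [hM]; fun_prop) ?_
    ((by fun_prop : ContinuousOn (fun c => gf c * c * (1 - c ^ 2)) (Icc 0 1)).intervalIntegrable_of_Icc
      zero_le_one)
  · rw [h]
    simp [hM]
    ring
  intro c hc
  have d0 := hasDerivAt_h0 (x := c) (by rw [abs_of_pos hc.1]; exact hc.2)
  have h := (((((hasDerivAt_pow 3 c).neg.div_const 3).add ((hasDerivAt_pow 5 c).div_const 5)).add
    ((hasDerivAt_pow 4 c).const_mul (2 * a))).sub ((hasDerivAt_pow 6 c).const_mul (4 * a / 3))).add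
    ((((hasDerivAt_pow 3 c).const_mul 4).mul (((hasDerivAt_pow 2 c).const_sub 1).pow 2)).mul d0)
  refine (h.congr_of_eventuallyEq (Eventually.of_forall fun y => ?_)).congr_deriv ?_
  · simp [hM]
  · simp only [gf, Pi.pow_apply, Pi.mul_apply]
    push_cast
    ring

end

end Vale.Agent.P219.CH.Cert.Five
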