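import Vale.Agent.P219.CH.Cert.Five.Series

/-!
P219: the coefficients of the profile in dimension five. `w q = ∏ₖ (q+2k)²/((q+2k)²+4)` fixes the
constant `a`; a rational sandwich of `w` controls the third differences.
-/

namespace Vale.Agent.P219.CH.Cert.Five

open Filter Topology Set

noncomputable section

/-- `q² / (q² + 4)`. -/
def fac (q : ℕ) : ℝ := (q : ℝ) ^ 2 / ((q : ℝ) ^ 2 + 4)

/-- Partial products. -/
def wprod : ℕ → ℕ → ℝ
  | _, 0 => 1
  | q, N + 1 => fac q * wprod (q + 2) N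

/-- The infinite product. -/
def w (q : ℕ) : ℝ := ⨅ N, wprod q N

/-- Lower rational approximation of `w`. -/
def Rlo (x : ℝ) : ℝ := 1 - 2 / x + 8 / (3 * x ^ 3) + 8 / (3 * x ^ 4) - 10 / x ^ 5

/-- Upper rational approximation of `w`. -/
def Rhi (x : ℝ) : ℝ := 1 - 2 / x + 8 / (3 * x ^ 3) + 8 / (3 * x ^ 4) - 5 / x ^ 5

lemma fac_nonneg (q : ℕ) : 0 ≤ fac q := by unfold fac; positivity

lemma fac_le_one (q : ℕ) : fac q ≤ 1 := by
  rw [fac, div_le_one (by positivity)]; linarith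

lemma wprod_nonneg (q N : ℕ) : 0 ≤ wprod q N := by
  induction N generalizing q with
  | zero => exact zero_le_one
  | succ N ih => exact mul_nonneg (fac_nonneg q) (ih _)

lemma wprod_antitone (q : ℕ) : Antitone (wprod q) := by
  refine antitone_nat_of_succ_le fun N => ?_
  induction N generalizing q with
  | zero => simpa [wprod] using fac_le_one q
  | succ N ih => exact mul_le_mul_of_nonneg_left (ih (q + 2)) (fac_nonneg q)

lemma bddBelow_wprod (q : ℕ) : BddBelow (range (wprod q)) :=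
  ⟨0, by rintro _ ⟨N, rfl⟩; exact wprod_nonneg q N⟩

lemma tendsto_wprod (q : ℕ) : Tendsto (wprod q) atTop (𝓝 (w q)) :=
  tendsto_atTop_ciInf (wprod_antitone q) (bddBelow_wprod q)

lemma w_rec (q : ℕ) : w q = fac q * w (q + 2) :=
  tendsto_nhds_unique ((tendsto_wprod q).comp (tendsto_add_atTop_nat 1))
    ((tendsto_wprod (q + 2)).const_mul (fac q))

lemma Rlo_step {x : ℝ} (hx : 5 ≤ x) : Rlo x ≤ x ^ 2 / (x ^ 2 + 4) * Rlo (x + 2) := by
  obtain ⟨t, ht, rfl⟩ : ∃ t, 0 ≤ t ∧ x = 5 + t := ⟨x - 5, by linarith, by ring⟩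
  rw [← sub_nonneg, Rlo, Rlo]
  field_simp
  ring_nf
  positivity

lemma Rhi_step {x : ℝ} (hx : 5 ≤ x) : x ^ 2 / (x ^ 2 + 4) * Rhi (x + 2) ≤ Rhi x := by
  obtain ⟨t, ht, rfl⟩ : ∃ t, 0 ≤ t ∧ x = 5 + t := ⟨x - 5, by linarith, by ring⟩
  rw [← sub_nonneg, Rhi, Rhi]
  field_simp
  ring_nf
  positivity

lemma Rlo_le_one {x : ℝ} (hx : 5 ≤ x) : Rlo x ≤ 1 := by
  obtain ⟨t, ht, rfl⟩ : ∃ t, 0 ≤ t ∧ x = 5 + t := ⟨x - 5, by linarith, by ring⟩
  rw [← sub_nonneg, Rlo]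
  field_simp
  ring_nf
  positivity

lemma Rhi_ge {x : ℝ} (hx : 5 ≤ x) : 1 - 2 / x ≤ Rhi x := by
  obtain ⟨t, ht, rfl⟩ : ∃ t, 0 ≤ t ∧ x = 5 + t := ⟨x - 5, by linarith, by ring⟩
  rw [← sub_nonneg, Rhi]
  field_simp
  ring_nf
  positivity

lemma Rlo_le_w {q : ℕ} (hq : 5 ≤ q) : Rlo q ≤ w q := by
  refine le_ciInf fun N => ?_
  induction N generalizing q with
  | zero => exact Rlo_le_one (by exact_mod_cast hq)
  | succ N ih =>
    refine (Rlo_step (by exact_mod_cast hq)).trans ?_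
    have := ih (q := q + 2) (by omega)
    push_cast at this
    exact mul_le_mul_of_nonneg_left this (fac_nonneg q)

lemma wprod_mul_Rhi {q : ℕ} (hq : 5 ≤ q) (N : ℕ) :
    wprod q N * Rhi ((q : ℝ) + 2 * N) ≤ Rhi q := by
  induction N generalizing q with
  | zero => simp [wprod]
  | succ N ih =>
    refine le_trans ?_ (Rhi_step (by exact_mod_cast hq))
    have := ih (q := q + 2) (by omega)
    push_cast at this ⊢
    rw [wprod, mul_assoc, show (q : ℝ) + 2 * (N + 1) = q + 2 + 2 * N by ring]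
    exact mul_le_mul_of_nonneg_left this (fac_nonneg q)

lemma w_le_Rhi {q : ℕ} (hq : 5 ≤ q) : w q ≤ Rhi q := by
  have h : ∀ N : ℕ, wprod q N * (1 - 2 / ((q : ℝ) + 2 * N)) ≤ Rhi q := fun N =>
    (mul_le_mul_of_nonneg_left (Rhi_ge (by
      have : (5 : ℝ) ≤ q := by exact_mod_cast hq
      linarith [(Nat.cast_nonneg N : (0 : ℝ) ≤ N)])) (wprod_nonneg q N)).trans (wprod_mul_Rhi hq N)
  have h1 : Tendsto (fun N : ℕ => (q : ℝ) + 2 * (N : ℝ)) atTop atTop :=
    tendsto_atTop_add_const_left _ _ (tendsto_natCast_atTop_atTop.const_mul_atTop two_pos)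
  have h2 := (tendsto_wprod q).mul ((h1.const_div_atTop 2).const_sub 1)
  rw [sub_zero, mul_one] at h2
  exact le_of_tendsto' h2 h

lemma w_five_pos : 0 < w 5 :=
  lt_of_lt_of_le (by norm_num [Rlo]) (Rlo_le_w le_rfl)

/-- The constant `π coth π / 52`, given by the two products. -/
def a : ℝ := w 6 / (18 * w 5)

/-- The normalisation. -/
def A : ℝ := 1 / (36 * w 5)

/-- The absolute values of the coefficients. -/
def u : ℕ → ℝ
  | 0 => 1 / 36
  | 1 => a / 2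
  | j + 2 => (1 + 4 / ((j : ℝ) + 5) ^ 2) * u j

lemma u_eq (j : ℕ) : u j = A * w (j + 5) := by
  induction j using Nat.twoStepInduction with
  | zero =>
    rw [u, A]
    field_simp [w_five_pos.ne']
  | one =>
    rw [u, A, a]
    field_simp [w_five_pos.ne']
    ring
  | more j ih _ =>
    rw [u, ih, w_rec (j + 5), fac, show j + 5 + 2 = j + 2 + 5 from rfl]
    push_cast
    field_simp

lemma A_pos : 0 < A := by unfold A; have := w_five_pos; positivity

lemma w_five : w 5 = fac 5 * (fac 7 * (fac 9 * (fac 11 * (fac 13 * w 15)))) := by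
  rw [w_rec 5, w_rec 7, w_rec 9, w_rec 11, w_rec 13]

lemma w_six : w 6 = fac 6 * (fac 8 * (fac 10 * (fac 12 * (fac 14 * w 16)))) := by
  rw [w_rec 6, w_rec 8, w_rec 10, w_rec 12, w_rec 14]

lemma A_le : A ≤ 446 / 10000 := by
  rw [A, div_le_iff₀ (by linarith [w_five_pos])]
  have := Rlo_le_w (q := 15) (by norm_num)
  rw [w_five]
  norm_num [fac, Rlo] at this ⊢
  linarith

lemma a_bounds : 6064 / 100000 ≤ a ∧ a ≤ 6065 / 100000 := by
  have h1 := Rlo_le_w (q := 15) (by norm_num)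
  have h2 := Rlo_le_w (q := 16) (by norm_num)
  have h3 := w_le_Rhi (q := 15) (by norm_num)
  have h4 := w_le_Rhi (q := 16) (by norm_num)
  rw [a, le_div_iff₀ (by linarith [w_five_pos]), div_le_iff₀ (by linarith [w_five_pos]), w_five,
    w_six]
  norm_num [fac, Rlo, Rhi] at h1 h2 h3 h4 ⊢
  constructor <;> linarith

lemma u_bounds (j : ℕ) : A * Rlo ((j : ℝ) + 5) ≤ u j ∧ u j ≤ A * Rhi ((j : ℝ) + 5) := by
  have h1 := Rlo_le_w (q := j + 5) (by omega)
  have h2 := w_le_Rhi (q := j + 5) (by omega)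
  push_cast at h1 h2
  rw [u_eq]
  exact ⟨mul_le_mul_of_nonneg_left h1 A_pos.le, mul_le_mul_of_nonneg_left h2 A_pos.le⟩

lemma u_nonneg (j : ℕ) : 0 ≤ u j := by
  induction j using Nat.twoStepInduction with
  | zero => rw [u]; norm_num
  | one => rw [u]; linarith [a_bounds.1]
  | more j ih _ => rw [u]; positivity

lemma polyBdd_u : PolyBdd u := ⟨A, 0, fun j => by
  rw [abs_of_nonneg (u_nonneg j), pow_zero, u_eq]
  refine mul_le_mul_of_nonneg_left ?_ A_pos.le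
  exact (ciInf_le (bddBelow_wprod _) 0).trans le_rfl⟩

/-- The coefficients of `g''`. -/
def Gw (j : ℕ) : ℝ := ((j : ℝ) + 2) * ((j : ℝ) + 3) ^ 2 / ((j : ℝ) + 5) * u j

lemma polyBdd_Gw : PolyBdd Gw :=
  polyBdd_u.mul_poly (D := 27) (m := 2) fun j => by
    have h0 : (0 : ℝ) ≤ j := Nat.cast_nonneg j
    rw [abs_of_nonneg (by positivity), div_le_iff₀ (by positivity)]
    nlinarith [mul_nonneg h0 h0, mul_nonneg (mul_nonneg h0 h0) h0]

/-- The part of the third difference that telescopes in closed form. -/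
lemma diff3_approx (al be : ℝ) {p : ℝ} (hp : 0 < p) :
    |al * (1 / (p + 3) - 3 / (p + 2) + 3 / (p + 1) - 1 / p) +
      be * (1 / ((p + 3) * (p + 4)) - 3 / ((p + 2) * (p + 3)) + 3 / ((p + 1) * (p + 2)) -
        1 / (p * (p + 1)))| ≤ 6 * |al| / p ^ 4 + 24 * |be| / p ^ 5 := by
  have e1 : 1 / (p + 3) - 3 / (p + 2) + 3 / (p + 1) - 1 / p =
      -(6 / (p * (p + 1) * (p + 2) * (p + 3))) := by field_simp; ring
  have e2 : 1 / ((p + 3) * (p + 4)) - 3 / ((p + 2) * (p + 3)) + 3 / ((p + 1) * (p + 2)) -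
      1 / (p * (p + 1)) = -(24 / (p * (p + 1) * (p + 2) * (p + 3) * (p + 4))) := by
    field_simp; ring
  rw [e1, e2]
  refine (abs_add_le _ _).trans (add_le_add ?_ ?_)
  · rw [abs_mul, abs_neg, abs_of_pos (a := 6 / (p * (p + 1) * (p + 2) * (p + 3))) (by positivity),
      mul_comm, div_mul_eq_mul_div]
    refine div_le_div_of_nonneg_left (by positivity) (by positivity) ?_
    have : p ^ 4 = p * p * p * p := by ring
    rw [this]; gcongr <;> linarith
  · rw [abs_mul, abs_neg,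
      abs_of_pos (a := 24 / (p * (p + 1) * (p + 2) * (p + 3) * (p + 4))) (by positivity),
      mul_comm, div_mul_eq_mul_div]
    refine div_le_div_of_nonneg_left (by positivity) (by positivity) ?_
    have : p ^ 5 = p * p * p * p * p := by ring
    rw [this]; gcongr <;> linarith

lemma sum_inv_cube (p : ℝ) (hp : 1 < p) (N : ℕ) :
    ∑ i ∈ Finset.range N, 1 / (p + i) ^ 3 ≤
      1 / (2 * (p - 1) * p) - 1 / (2 * (p + N - 1) * (p + N)) := by
  induction N with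
  | zero => simp
  | succ N ih =>
    rw [Finset.sum_range_succ]
    push_cast
    have hN : (0 : ℝ) ≤ N := Nat.cast_nonneg N
    have h : 1 / (p + N) ^ 3 ≤
        1 / (2 * (p + N - 1) * (p + N)) - 1 / (2 * (p + N) * (p + N + 1)) := by
      obtain ⟨z, hz, e⟩ : ∃ z, 1 < z ∧ p + N = z := ⟨_, by linarith, rfl⟩
      rw [e]
      have : 0 < z - 1 := by linarith
      rw [show 1 / (2 * (z - 1) * z) - 1 / (2 * z * (z + 1)) = 1 / (z * ((z - 1) * (z + 1))) by
        field_simp; ring]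
      refine one_div_le_one_div_of_le (by positivity) ?_
      nlinarith
    rw [show p + ((N : ℝ) + 1) - 1 = p + N by ring, show p + ((N : ℝ) + 1) = p + N + 1 by ring]
    linarith

/-- Third differences of a sequence close to `A (quadratic + al/q + be/(q(q+1)))`, `q = j + sh`. -/
lemma tail_bound {T : ℕ → ℝ} {sh : ℕ} {c2 c1 c0 al be C : ℝ} (hC : 0 ≤ C) (hsh : 1 ≤ sh)
    (h : ∀ j, |T j - A * (c2 * ((j : ℝ) + sh) ^ 2 + c1 * ((j : ℝ) + sh) + c0 + al / ((j : ℝ) + sh) +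
      be / (((j : ℝ) + sh) * ((j : ℝ) + sh + 1)))| ≤ A * C / ((j : ℝ) + sh) ^ 3) :
    Summable (fun j => |D3 T (j + 6)|) ∧ ∑' j, |D3 T (j + 6)| ≤ A *
      (6 * |al| / (sh + 3 : ℝ) + 24 * |be| / (sh + 3 : ℝ) ^ 2 + 8 * C) /
        (2 * ((sh : ℝ) + 2) * ((sh : ℝ) + 3)) := by
  set p0 : ℝ := (sh : ℝ) + 3 with hp0
  have hsh' : (1 : ℝ) ≤ sh := by exact_mod_cast hsh
  set M := A * (6 * |al| / p0 + 24 * |be| / p0 ^ 2 + 8 * C) with hM
  have hA := A_pos
  have hM0 : 0 ≤ M := by positivity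
  have hterm : ∀ i : ℕ, |D3 T (i + 6)| ≤ M * (1 / (p0 + i) ^ 3) := by
    intro i
    obtain ⟨P, hP⟩ : ∃ P, P = p0 + (i : ℝ) := ⟨_, rfl⟩
    have hp : p0 ≤ P := by rw [hP]; linarith [(Nat.cast_nonneg i : (0 : ℝ) ≤ i)]
    have hp00 : 0 < p0 := by linarith
    have hPpos : 0 < P := by linarith
    set θ : ℕ → ℝ := fun j => T j - A * (c2 * ((j : ℝ) + sh) ^ 2 + c1 * ((j : ℝ) + sh) + c0 +
      al / ((j : ℝ) + sh) + be / (((j : ℝ) + sh) * ((j : ℝ) + sh + 1))) with hθ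
    have hθb : ∀ k : ℕ, k ≤ 3 → |θ (i + 3 + k)| ≤ A * C / P ^ 3 := by
      intro k _
      refine (h _).trans (div_le_div_of_nonneg_left (by positivity) (by positivity) ?_)
      refine pow_le_pow_left₀ hPpos.le ?_ 3
      rw [hP, hp0]; push_cast; linarith [(Nat.cast_nonneg k : (0 : ℝ) ≤ k)]
    have e : D3 T (i + 6) = θ (i + 6) - 3 * θ (i + 5) + 3 * θ (i + 4) - θ (i + 3) +
        A * (al * (1 / (P + 3) - 3 / (P + 2) + 3 / (P + 1) - 1 / P) +
          be * (1 / ((P + 3) * (P + 4)) - 3 / ((P + 2) * (P + 3)) + 3 / ((P + 1) * (P + 2)) -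
            1 / (P * (P + 1)))) := by
      simp only [D3, D1, hθ]
      subst hP
      simp only [hp0]
      push_cast
      ring
    rw [e]
    refine (abs_add_le _ _).trans ?_
    have t1 := hθb 3 le_rfl
    have t2 := hθb 2 (by norm_num)
    have t3 := hθb 1 (by norm_num)
    have t4 := hθb 0 (by norm_num)
    simp only [add_assoc, Nat.reduceAdd, add_zero] at t1 t2 t3 t4
    have s1 : |θ (i + 6) - 3 * θ (i + 5) + 3 * θ (i + 4) - θ (i + 3)| ≤ 8 * (A * C / P ^ 3) := by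
      rw [abs_le] at t1 t2 t3 t4 ⊢
      constructor <;> linarith
    have s2 : |A * (al * (1 / (P + 3) - 3 / (P + 2) + 3 / (P + 1) - 1 / P) +
          be * (1 / ((P + 3) * (P + 4)) - 3 / ((P + 2) * (P + 3)) + 3 / ((P + 1) * (P + 2)) -
            1 / (P * (P + 1))))| ≤ A * (6 * |al| / p0 + 24 * |be| / p0 ^ 2) / P ^ 3 := by
      rw [abs_mul, abs_of_pos hA, mul_div_assoc]
      refine mul_le_mul_of_nonneg_left ((diff3_approx al be hPpos).trans ?_) hA.le
      rw [add_div, div_div, div_div]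
      refine add_le_add (div_le_div_of_nonneg_left (by positivity) (by positivity) ?_)
        (div_le_div_of_nonneg_left (by positivity) (by positivity) ?_)
      · rw [show P ^ 4 = P * P ^ 3 by ring]; gcongr
      · rw [show P ^ 5 = P ^ 2 * P ^ 3 by ring]; gcongr
    refine (add_le_add s1 s2).trans (le_of_eq ?_)
    rw [hM, ← hP]
    ring
  have hb : ∀ N, ∑ i ∈ Finset.range N, |D3 T (i + 6)| ≤ M / (2 * ((sh : ℝ) + 2) * p0) := by
    intro N
    refine (Finset.sum_le_sum fun i _ => hterm i).trans ?_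
    rw [← Finset.mul_sum, div_eq_mul_one_div M]
    refine mul_le_mul_of_nonneg_left ((sum_inv_cube p0 (by linarith) N).trans ?_) hM0
    rw [show p0 - 1 = (sh : ℝ) + 2 by ring]
    have hN : (0 : ℝ) ≤ N := Nat.cast_nonneg N
    have : 0 < p0 + N - 1 := by linarith
    have : 0 ≤ 1 / (2 * (p0 + N - 1) * (p0 + N)) := by positivity
    linarith
  exact ⟨summable_of_sum_range_le (fun i => abs_nonneg _) hb,
    Real.tsum_le_of_sum_range_le (fun i => abs_nonneg _) hb⟩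

lemma squeeze {v X l h B : ℝ} (hv : l ≤ v ∧ v ≤ h) (h1 : |l - X| ≤ B) (h2 : |h - X| ≤ B) :
    |v - X| ≤ B := by
  rw [abs_le] at h1 h2 ⊢
  constructor <;> linarith [hv.1, hv.2]

lemma approx_h0 {x : ℝ} (hx : 5 ≤ x) :
    |Rlo x - (1 - 2 / x)| ≤ 3 / x ^ 3 ∧ |Rhi x - (1 - 2 / x)| ≤ 3 / x ^ 3 := by
  obtain ⟨t, ht, rfl⟩ : ∃ t, 0 ≤ t ∧ x = 5 + t := ⟨x - 5, by linarith, by ring⟩
  rw [abs_le, abs_le]
  refine ⟨⟨?_, ?_⟩, ?_, ?_⟩ <;>
  · rw [← sub_nonneg]
    simp only [Rlo, Rhi]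
    field_simp
    ring_nf
    positivity

lemma approx_h1 {x : ℝ} (hx : 6 ≤ x) :
    |(x - 5) * Rlo x - (x - 7 + 10 / x + 8 / 3 / (x * (x + 1)))| ≤ 11 / x ^ 3 ∧
      |(x - 5) * Rhi x - (x - 7 + 10 / x + 8 / 3 / (x * (x + 1)))| ≤ 11 / x ^ 3 := by
  obtain ⟨t, ht, rfl⟩ : ∃ t, 0 ≤ t ∧ x = 6 + t := ⟨x - 6, by linarith, by ring⟩
  rw [abs_le, abs_le]
  refine ⟨⟨?_, ?_⟩, ?_, ?_⟩ <;>
  · rw [← sub_nonneg]
    simp only [Rlo, Rhi]
    field_simp
    ring_nf
    positivity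

lemma approx_g2 {x : ℝ} (hx : 5 ≤ x) :
    |(x - 3) * (x - 2) ^ 2 / x * Rlo x -
        (x ^ 2 - 9 * x + 30 - 124 / 3 / x + 8 / (x * (x + 1)))| ≤ 31 / x ^ 3 ∧
      |(x - 3) * (x - 2) ^ 2 / x * Rhi x -
        (x ^ 2 - 9 * x + 30 - 124 / 3 / x + 8 / (x * (x + 1)))| ≤ 31 / x ^ 3 := by
  obtain ⟨t, ht, rfl⟩ : ∃ t, 0 ≤ t ∧ x = 5 + t := ⟨x - 5, by linarith, by ring⟩
  rw [abs_le, abs_le]
  refine ⟨⟨?_, ?_⟩, ?_, ?_⟩ <;>
  · rw [← sub_nonneg]
    simp only [Rlo, Rhi]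
    field_simp
    ring_nf
    positivity

lemma tail_split {T : ℕ → ℝ} {ε : ℝ} (h : Summable (fun j => |D3 T (j + 6)|))
    (hle : |D3 T 3| + |D3 T 4| + |D3 T 5| + ∑' j, |D3 T (j + 6)| ≤ ε) :
    Summable (fun j => |D3 T j|) ∧ ∑' j, |D3 T (j + 3)| ≤ ε := by
  have hs : Summable fun j => |D3 T j| := (summable_nat_add_iff (f := fun j => |D3 T j|) 6).1 h
  refine ⟨hs, ?_⟩
  rw [← ((summable_nat_add_iff (f := fun j => |D3 T j|) 3).2 hs).sum_add_tsum_nat_add 3]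
  simpa [Finset.sum_range_succ] using hle

lemma near_u : Summable (fun j => |D3 u j|) ∧ ∑' j, |D3 u (j + 3)| ≤ 11 / 1000 := by
  obtain ⟨h1, h2⟩ := tail_bound (T := u) (sh := 5) (c2 := 0) (c1 := 0) (c0 := 1) (al := -2)
    (be := 0) (C := 3) (by norm_num) (by norm_num) fun j => by
      obtain ⟨a1, a2⟩ := approx_h0 (x := (j : ℝ) + 5) (by linarith [(Nat.cast_nonneg j : (0:ℝ) ≤ j)])
      rw [mul_div_assoc]
      refine squeeze (u_bounds j) ?_ ?_ <;>
        rw [← mul_sub, abs_mul, abs_of_pos A_pos] <;>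
        refine mul_le_mul_of_nonneg_left ?_ A_pos.le
      · push_cast; exact le_of_eq_of_le (congrArg abs (by ring)) a1
      · push_cast; exact le_of_eq_of_le (congrArg abs (by ring)) a2
  refine tail_split h1 ?_
  have h3 : |D3 u 3| + |D3 u 4| + |D3 u 5| ≤ 6 / 10000 := by
    obtain ⟨hl, hh⟩ := a_bounds
    have b3 : |D3 u 3| ≤ 25 / 100000 := by
      rw [abs_le]; norm_num [D3, D1, u]; constructor <;> linarith
    have b4 : |D3 u 4| ≤ 17 / 100000 := by
      rw [abs_le]; norm_num [D3, D1, u]; constructor <;> linarith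
    have b5 : |D3 u 5| ≤ 12 / 100000 := by
      rw [abs_le]; norm_num [D3, D1, u]; constructor <;> linarith
    linarith
  norm_num at h2
  linarith [A_le]

lemma near_du : Summable (fun j => |D3 (dT u) j|) ∧ ∑' j, |D3 (dT u) (j + 3)| ≤ 34 / 1000 := by
  obtain ⟨h1, h2⟩ := tail_bound (T := dT u) (sh := 6) (c2 := 0) (c1 := 1) (c0 := -7) (al := 10)
    (be := 8 / 3) (C := 11) (by norm_num) (by norm_num) fun j => by
      have hj : (0 : ℝ) ≤ j := Nat.cast_nonneg j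
      obtain ⟨a1, a2⟩ := approx_h1 (x := (j : ℝ) + 6) (by linarith)
      obtain ⟨b1, b2⟩ := u_bounds (j + 1)
      push_cast at b1 b2
      rw [show (j : ℝ) + 1 + 5 = j + 6 by ring] at b1 b2
      rw [mul_div_assoc]
      refine squeeze (l := A * (((j : ℝ) + 1) * Rlo ((j : ℝ) + 6)))
        (h := A * (((j : ℝ) + 1) * Rhi ((j : ℝ) + 6))) ⟨?_, ?_⟩ ?_ ?_
      · rw [dT, mul_left_comm]; exact mul_le_mul_of_nonneg_left b1 (by linarith)
      · rw [dT, mul_left_comm]; exact mul_le_mul_of_nonneg_left b2 (by linarith)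
      · rw [← mul_sub, abs_mul, abs_of_pos A_pos]
        refine mul_le_mul_of_nonneg_left ?_ A_pos.le
        push_cast
        exact le_of_eq_of_le (congrArg abs (by ring)) a1
      · rw [← mul_sub, abs_mul, abs_of_pos A_pos]
        refine mul_le_mul_of_nonneg_left ?_ A_pos.le
        push_cast
        exact le_of_eq_of_le (congrArg abs (by ring)) a2
  refine tail_split h1 ?_
  obtain ⟨hl, hh⟩ := a_bounds
  have b3 : |D3 (dT u) 3| ≤ 87 / 100000 := by
    rw [abs_le]; norm_num [D3, D1, dT, u]; constructor <;> linarith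
  have b4 : |D3 (dT u) 4| ≤ 66 / 100000 := by
    rw [abs_le]; norm_num [D3, D1, dT, u]; constructor <;> linarith
  have b5 : |D3 (dT u) 5| ≤ 55 / 100000 := by
    rw [abs_le]; norm_num [D3, D1, dT, u]; constructor <;> linarith
  norm_num at h2
  linarith [A_le]

lemma near_Gw : Summable (fun j => |D3 Gw j|) ∧ ∑' j, |D3 Gw (j + 3)| ≤ 13 / 100 := by
  obtain ⟨h1, h2⟩ := tail_bound (T := Gw) (sh := 5) (c2 := 1) (c1 := -9) (c0 := 30)
    (al := -124 / 3) (be := 8) (C := 31) (by norm_num) (by norm_num) fun j => by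
      have hj : (0 : ℝ) ≤ j := Nat.cast_nonneg j
      obtain ⟨a1, a2⟩ := approx_g2 (x := (j : ℝ) + 5) (by linarith)
      rw [show (j : ℝ) + 5 - 3 = j + 2 by ring, show (j : ℝ) + 5 - 2 = j + 3 by ring] at a1 a2
      obtain ⟨b1, b2⟩ := u_bounds j
      have hc : (0 : ℝ) ≤ ((j : ℝ) + 2) * ((j : ℝ) + 3) ^ 2 / ((j : ℝ) + 5) := by positivity
      rw [mul_div_assoc]
      refine squeeze
        (l := A * (((j : ℝ) + 2) * ((j : ℝ) + 3) ^ 2 / ((j : ℝ) + 5) * Rlo ((j : ℝ) + 5)))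
        (h := A * (((j : ℝ) + 2) * ((j : ℝ) + 3) ^ 2 / ((j : ℝ) + 5) * Rhi ((j : ℝ) + 5)))
        ⟨?_, ?_⟩ ?_ ?_
      · rw [Gw, mul_left_comm]; exact mul_le_mul_of_nonneg_left b1 hc
      · rw [Gw, mul_left_comm]; exact mul_le_mul_of_nonneg_left b2 hc
      · rw [← mul_sub, abs_mul, abs_of_pos A_pos]
        refine mul_le_mul_of_nonneg_left ?_ A_pos.le
        push_cast
        exact le_of_eq_of_le (congrArg abs (by ring)) a1
      · rw [← mul_sub, abs_mul, abs_of_pos A_pos]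
        refine mul_le_mul_of_nonneg_left ?_ A_pos.le
        push_cast
        exact le_of_eq_of_le (congrArg abs (by ring)) a2
  refine tail_split h1 ?_
  obtain ⟨hl, hh⟩ := a_bounds
  have b3 : |D3 Gw 3| ≤ 52 / 10000 := by
    rw [abs_le]; norm_num [D3, D1, Gw, u]; constructor <;> linarith
  have b4 : |D3 Gw 4| ≤ 34 / 10000 := by
    rw [abs_le]; norm_num [D3, D1, Gw, u]; constructor <;> linarith
  have b5 : |D3 Gw 5| ≤ 26 / 10000 := by
    rw [abs_le]; norm_num [D3, D1, Gw, u]; constructor <;> linarith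
  norm_num at h2
  linarith [A_le]

/-- The leading coefficients. -/
lemma heads : D3 u 0 = 1 / 36 ∧ D3 u 1 = a / 2 - 1 / 12 ∧ D3 u 2 = 104 / 900 - 3 * a / 2 + 0 ∧
    D3 (dT u) 0 = a / 2 ∧ D3 (dT u) 1 = 29 / 450 - 3 * a / 2 ∧
    D3 (dT u) 2 = 19 * a / 6 - 29 / 150 ∧
    D3 Gw 0 = 1 / 10 ∧ D3 Gw 1 = 4 * a - 3 / 10 ∧
    D3 Gw 2 = 29 / 63 + 3 / 10 - 12 * a := by
  refine ⟨?_, ?_, ?_, ?_, ?_, ?_, ?_, ?_, ?_⟩ <;> norm_num [D3, D1, dT, Gw, u] <;> ring

end

end Vale.Agent.P219.CH.Cert.Five
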