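import Mathlib

/-!
P219: alternating power series `∑ T j (-x)^j` with coefficients of polynomial growth, and the
series `(1 + x)^3` times them, which converge up to `x = 1` when the third differences are
summable.
-/

namespace Vale.Agent.P219.CH.Cert.Five

open Filter Topology Set

noncomputable section

/-- The series `∑ T j (-x)^j`. -/
def pser (T : ℕ → ℝ) (x : ℝ) : ℝ := ∑' j, T j * (-x) ^ j

/-- Polynomial growth. -/
def PolyBdd (T : ℕ → ℝ) : Prop := ∃ (C : ℝ) (k : ℕ), ∀ j, |T j| ≤ C * ((j : ℝ) + 1) ^ k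

/-- Coefficients of the derivative. -/
def dT (T : ℕ → ℝ) (j : ℕ) : ℝ := ((j : ℝ) + 1) * T (j + 1)

/-- First differences. -/
def D1 (T : ℕ → ℝ) : ℕ → ℝ
  | 0 => T 0
  | j + 1 => T (j + 1) - T j

/-- Third differences. -/
def D3 (T : ℕ → ℝ) : ℕ → ℝ := D1 (D1 (D1 T))

/-- `(1 + x)^3 ∑ T j (-x)^j`, continued to `|x| = 1`. -/
def tser (T : ℕ → ℝ) (x : ℝ) : ℝ := pser (D3 T) x

lemma PolyBdd.summable {T : ℕ → ℝ} (hT : PolyBdd T) {x : ℝ} (hx : |x| < 1) :
    Summable fun j => T j * (-x) ^ j := by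
  obtain ⟨C, k, h⟩ := hT
  have hs : Summable fun j : ℕ => |C| * 2 ^ k * (((j : ℝ) ^ k + 1) * |x| ^ j) := by
    refine Summable.mul_left _ ?_
    have h1 := summable_pow_mul_geometric_of_norm_lt_one k (r := |x|) (by simpa using hx)
    simp_rw [add_mul, one_mul]
    exact h1.add (summable_geometric_of_lt_one (abs_nonneg x) hx)
  refine Summable.of_norm_bounded hs fun j => ?_
  rw [Real.norm_eq_abs, abs_mul, abs_pow, abs_neg, ← mul_assoc]
  refine mul_le_mul_of_nonneg_right ?_ (by positivity)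
  refine (h j).trans ((mul_le_mul_of_nonneg_right (le_abs_self C) (by positivity)).trans ?_)
  rw [mul_assoc]
  refine mul_le_mul_of_nonneg_left ?_ (abs_nonneg C)
  rcases Nat.eq_zero_or_pos j with rfl | hj
  · norm_num
    calc (1 : ℝ) ≤ 2 ^ k * 1 := by rw [mul_one]; exact one_le_pow₀ (by norm_num)
      _ ≤ 2 ^ k * ((0 : ℝ) ^ k + 1) := by
          refine mul_le_mul_of_nonneg_left ?_ (by positivity)
          have : (0 : ℝ) ≤ (0 : ℝ) ^ k := pow_nonneg le_rfl k
          linarith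
  · have hj1 : (1 : ℝ) ≤ j := by exact_mod_cast hj
    calc ((j : ℝ) + 1) ^ k ≤ (2 * (j : ℝ)) ^ k := by gcongr; linarith
      _ = 2 ^ k * (j : ℝ) ^ k := mul_pow _ _ _
      _ ≤ 2 ^ k * ((j : ℝ) ^ k + 1) := by
          refine mul_le_mul_of_nonneg_left ?_ (by positivity)
          linarith

lemma PolyBdd.hasSum {T : ℕ → ℝ} (hT : PolyBdd T) {x : ℝ} (hx : |x| < 1) :
    HasSum (fun j => T j * (-x) ^ j) (pser T x) := (hT.summable hx).hasSum

lemma PolyBdd.succ {T : ℕ → ℝ} (hT : PolyBdd T) : PolyBdd fun j => T (j + 1) := by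
  obtain ⟨C, k, h⟩ := hT
  refine ⟨|C| * 2 ^ k, k, fun j => (h (j + 1)).trans ?_⟩
  rw [mul_assoc, ← mul_pow]
  refine mul_le_mul (le_abs_self C) ?_ (by positivity) (abs_nonneg C)
  push_cast
  gcongr
  linarith [(Nat.cast_nonneg j : (0 : ℝ) ≤ j)]

lemma PolyBdd.mul_poly {T : ℕ → ℝ} (hT : PolyBdd T) {f : ℕ → ℝ} {D : ℝ} {m : ℕ}
    (hf : ∀ j, |f j| ≤ D * ((j : ℝ) + 1) ^ m) : PolyBdd fun j => f j * T j := by
  obtain ⟨C, k, h⟩ := hT
  refine ⟨|D| * |C|, m + k, fun j => ?_⟩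
  rw [abs_mul, pow_add]
  calc |f j| * |T j| ≤ (|D| * ((j : ℝ) + 1) ^ m) * (|C| * ((j : ℝ) + 1) ^ k) := by
        refine mul_le_mul ((hf j).trans ?_) ((h j).trans ?_) (abs_nonneg _) (by positivity)
        · exact mul_le_mul_of_nonneg_right (le_abs_self D) (by positivity)
        · exact mul_le_mul_of_nonneg_right (le_abs_self C) (by positivity)
    _ = |D| * |C| * (((j : ℝ) + 1) ^ m * ((j : ℝ) + 1) ^ k) := by ring

lemma PolyBdd.dT {T : ℕ → ℝ} (hT : PolyBdd T) : PolyBdd (Five.dT T) :=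
  hT.succ.mul_poly (D := 1) (m := 1) fun j => by
    rw [abs_of_nonneg (by positivity)]; simp

lemma PolyBdd.D1 {T : ℕ → ℝ} (hT : PolyBdd T) : PolyBdd (Five.D1 T) := by
  obtain ⟨C, k, h⟩ := hT
  refine ⟨2 * |C|, k, fun j => ?_⟩
  have h' : ∀ i, i ≤ j → |T i| ≤ |C| * ((j : ℝ) + 1) ^ k := fun i hi => by
    refine (h i).trans (mul_le_mul (le_abs_self C) ?_ (by positivity) (abs_nonneg C))
    gcongr
  rcases j with - | j
  · exact (h' 0 le_rfl).trans
      (mul_le_mul_of_nonneg_right (by linarith [abs_nonneg C]) (by positivity))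
  · calc |T (j + 1) - T j| ≤ |T (j + 1)| + |T j| := abs_sub _ _
      _ ≤ _ := by linarith [h' (j + 1) le_rfl, h' j (Nat.le_succ j)]

lemma pser_eq_add {T : ℕ → ℝ} (hT : PolyBdd T) {x : ℝ} (hx : |x| < 1) :
    pser T x = T 0 - x * pser (fun j => T (j + 1)) x := by
  unfold pser
  rw [(hT.summable hx).tsum_eq_zero_add, pow_zero, mul_one, sub_eq_add_neg, ← neg_mul,
    ← tsum_mul_left]
  congr 1
  exact tsum_congr fun j => by ring

lemma pser_D1 {T : ℕ → ℝ} (hT : PolyBdd T) {x : ℝ} (hx : |x| < 1) :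
    pser (D1 T) x = (1 + x) * pser T x := by
  have e : pser (fun j => D1 T (j + 1)) x = pser (fun j => T (j + 1)) x - pser T x := by
    unfold pser
    rw [← (hT.succ.summable hx).tsum_sub (hT.summable hx)]
    exact tsum_congr fun j => by show (T (j + 1) - T j) * _ = _; ring
  rw [pser_eq_add hT.D1 hx, e, show D1 T 0 = T 0 from rfl]
  linear_combination -(pser_eq_add hT hx)

lemma tser_eq {T : ℕ → ℝ} (hT : PolyBdd T) {x : ℝ} (hx : |x| < 1) :
    tser T x = (1 + x) ^ 3 * pser T x := by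
  rw [tser, D3, pser_D1 hT.D1.D1 hx, pser_D1 hT.D1 hx, pser_D1 hT hx]
  ring

lemma hasDerivAt_pser {T : ℕ → ℝ} (hT : PolyBdd T) {x : ℝ} (hx : |x| < 1) :
    HasDerivAt (pser T) (-pser (dT T) x) x := by
  obtain ⟨ρ, hxρ, hρ⟩ := exists_between hx
  have hρ0 : 0 < ρ := (abs_nonneg x).trans_lt hxρ
  obtain ⟨C, k, hC⟩ := id hT
  have hu : Summable fun j : ℕ => |T j| * (j : ℝ) * ρ ^ (j - 1) := by
    rw [← summable_nat_add_iff 1]
    have := (hT.dT.summable (x := ρ) (by rwa [abs_of_pos hρ0])).norm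
    refine this.congr fun j => ?_
    rw [Real.norm_eq_abs, abs_mul, abs_pow, abs_neg, abs_of_pos hρ0, dT, abs_mul,
      abs_of_nonneg (by positivity : (0 : ℝ) ≤ (j : ℝ) + 1)]
    push_cast [Nat.add_sub_cancel]
    ring
  have h := hasDerivAt_tsum_of_isPreconnected (g := fun j y => T j * (-y) ^ j)
    (g' := fun j y => T j * (-((j : ℝ) * (-y) ^ (j - 1)))) (t := Ioo (-ρ) ρ) (y₀ := 0) (y := x)
    hu isOpen_Ioo isPreconnected_Ioo
    (fun j y _ => (((hasDerivAt_neg y).pow j).const_mul (T j)).congr_deriv (by ring))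
    (fun j y hy => by
      rw [Real.norm_eq_abs, abs_mul, abs_neg, abs_mul, abs_pow, abs_neg, Nat.abs_cast, ← mul_assoc]
      exact mul_le_mul_of_nonneg_left
        (pow_le_pow_left₀ (abs_nonneg y) (abs_le.2 ⟨hy.1.le, hy.2.le⟩) _) (by positivity))
    ⟨by linarith, hρ0⟩ (hT.summable (by simp)) (abs_lt.1 hxρ)
  refine h.congr_deriv ?_
  have hs : Summable fun j : ℕ => T j * (-((j : ℝ) * (-x) ^ (j - 1))) := by
    rw [← summable_nat_add_iff 1]
    refine (hT.dT.summable hx).neg.congr fun j => ?_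
    simp [dT]
    ring
  rw [hs.tsum_eq_zero_add, pser, ← tsum_neg]
  simp [dT]
  exact tsum_congr fun j => by ring

lemma continuousOn_tser {T : ℕ → ℝ} (hs : Summable fun j => |D3 T j|) :
    ContinuousOn (tser T) (Icc (-1) 1) :=
  continuousOn_tsum (fun j => (continuous_const.mul (continuous_neg.pow j)).continuousOn) hs
    fun j x hx => by
      rw [Real.norm_eq_abs, abs_mul, abs_pow, abs_neg]
      exact mul_le_of_le_one_right (abs_nonneg _) (pow_le_one₀ (abs_nonneg x) (abs_le.2 hx))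

lemma tser_bound {T : ℕ → ℝ} (hs : Summable fun j => |D3 T j|) {x : ℝ} (hx : x ∈ Icc (0 : ℝ) 1) :
    |tser T x - (D3 T 0 - D3 T 1 * x + D3 T 2 * x ^ 2)| ≤ (∑' j, |D3 T (j + 3)|) * x ^ 3 := by
  have h1 : ∀ j, |D3 T j * (-x) ^ j| ≤ |D3 T j| := fun j => by
    rw [abs_mul, abs_pow, abs_neg]
    exact mul_le_of_le_one_right (abs_nonneg _)
      (pow_le_one₀ (abs_nonneg x) (by rw [abs_of_nonneg hx.1]; exact hx.2))
  have hsum : Summable fun j => D3 T j * (-x) ^ j :=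
    Summable.of_norm_bounded hs fun j => by simpa using h1 j
  have e : tser T x - (D3 T 0 - D3 T 1 * x + D3 T 2 * x ^ 2) =
      ∑' j, D3 T (j + 3) * (-x) ^ (j + 3) := by
    rw [tser, pser, ← hsum.sum_add_tsum_nat_add 3]
    simp [Finset.sum_range_succ]
    ring
  have hs3 := (summable_nat_add_iff 3).2 hs
  rw [e, ← tsum_mul_right, ← Real.norm_eq_abs]
  refine tsum_of_norm_bounded (hs3.mul_right _).hasSum fun j => ?_
  rw [Real.norm_eq_abs, abs_mul, abs_pow, abs_neg, abs_of_nonneg hx.1, pow_add]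
  refine mul_le_mul_of_nonneg_left ?_ (abs_nonneg _)
  exact mul_le_of_le_one_left (pow_nonneg hx.1 3) (pow_le_one₀ hx.1 hx.2)

end

end Vale.Agent.P219.CH.Cert.Five
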